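import Vale.Agent.P366.Cohom.Mono

/-!
At infinity the quasi-local mass tends to twice the ADM energy integral.
-/

open Matrix Filter Topology Asymptotics

namespace Vale.Agent.P366.Cohom

variable {ι : Type} [Fintype ι] [DecidableEq ι]

/-- `F` is of order `r⁻ᵃ`. -/
def Ord (a : ℝ) (F : ℝ → ℝ) : Prop := F =O[atTop] fun r : ℝ => r ^ (-a)

theorem Ord.add {a : ℝ} {F G : ℝ → ℝ} (hF : Ord a F) (hG : Ord a G) : Ord a fun r => F r + G r :=
  IsBigO.add hF hG

theorem Ord.sub {a : ℝ} {F G : ℝ → ℝ} (hF : Ord a F) (hG : Ord a G) : Ord a fun r => F r - G r :=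
  IsBigO.sub hF hG

theorem Ord.neg {a : ℝ} {F : ℝ → ℝ} (hF : Ord a F) : Ord a fun r => -F r := IsBigO.neg_left hF

theorem Ord.const_mul {a : ℝ} {F : ℝ → ℝ} (hF : Ord a F) (c : ℝ) : Ord a fun r => c * F r :=
  IsBigO.const_mul_left hF c

theorem Ord.mul {a b : ℝ} {F G : ℝ → ℝ} (hF : Ord a F) (hG : Ord b G) :
    Ord (a + b) fun r => F r * G r := by
  refine (IsBigO.mul hF hG).trans (EventuallyEq.isBigO ?_)
  filter_upwards [eventually_gt_atTop 0] with r hr
  rw [← Real.rpow_add hr, neg_add]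

theorem Ord.congr {a : ℝ} {F G : ℝ → ℝ} (hF : Ord a F) (h : F =ᶠ[atTop] G) : Ord a G :=
  IsBigO.congr' hF h EventuallyEq.rfl

theorem Ord.bdd_mul {a : ℝ} {F G : ℝ → ℝ} {l : ℝ} (hG : Tendsto G atTop (𝓝 l)) (hF : Ord a F) :
    Ord a fun r => G r * F r := by
  simpa [Ord] using (hG.isBigO_one ℝ).mul hF

theorem Ord.mul_id {a : ℝ} {F : ℝ → ℝ} (hF : Ord (a + 1) F) : Ord a fun r => r * F r := by
  refine ((isBigO_refl (fun r : ℝ => r) atTop).mul hF).trans (EventuallyEq.isBigO ?_)
  filter_upwards [eventually_gt_atTop 0] with r hr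
  rw [show (-a : ℝ) = 1 + -(a + 1) by ring, Real.rpow_add hr, Real.rpow_one]

theorem Ord.tendsto {a : ℝ} {F : ℝ → ℝ} (hF : Ord a F) (ha : 0 < a) : Tendsto F atTop (𝓝 0) :=
  IsBigO.trans_tendsto hF (tendsto_rpow_neg_atTop ha)

theorem Ord.sum {κ : Type} {s : Finset κ} {a : ℝ} {F : κ → ℝ → ℝ} (h : ∀ i ∈ s, Ord a (F i)) :
    Ord a fun r => ∑ i ∈ s, F i r := by
  have := IsBigO.sum (fun i hi => (h i hi : F i =O[atTop] fun r : ℝ => r ^ (-a)))
  simpa [Ord, Finset.sum_fn] using this

namespace Data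

variable (D : Data ι)

/-- The deviation of the rescaled orbit metric from the round one. -/
noncomputable def eta (r : ℝ) : Matrix ι ι ℝ := (r ^ 2)⁻¹ • D.h r - 1

/-- The derivative of `eta`. -/
noncomputable def deta (r : ℝ) : Matrix ι ι ℝ :=
  Matrix.of fun i j => deriv (fun s => D.h s i j / s ^ 2) r

theorem h_eq {r : ℝ} (hr : r ≠ 0) : D.h r = r ^ 2 • (1 + D.eta r) := by
  rw [Data.eta, add_sub_cancel, smul_smul, mul_inv_cancel₀ (pow_ne_zero 2 hr), one_smul]

variable {D} {q : ℝ} (hA : D.AFlat q)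
include hA

theorem ord_eta (i j : ι) : Ord q fun r => D.eta r i j := by
  refine IsBigO.congr' (hA.metric i j) (Eventually.of_forall fun r => ?_) EventuallyEq.rfl
  simp [Data.eta, div_eq_inv_mul]

theorem rate_pos [Nonempty ι] : 0 < q := by
  have h := hA.rate
  have : (1 : ℝ) ≤ Fintype.card ι := by exact_mod_cast Fintype.card_pos
  linarith

theorem tendsto_one_add_eta [Nonempty ι] : Tendsto (fun r => 1 + D.eta r) atTop (𝓝 1) := by
  refine tendsto_pi_nhds.2 fun i => tendsto_pi_nhds.2 fun j => ?_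
  simpa using ((ord_eta hA i j).tendsto (rate_pos hA)).const_add ((1 : Matrix ι ι ℝ) i j)

theorem tendsto_det [Nonempty ι] : Tendsto (fun r => (1 + D.eta r).det) atTop (𝓝 1) := by
  simpa [Function.comp_def] using
    ((continuous_id.matrix_det).tendsto (1 : Matrix ι ι ℝ)).comp (tendsto_one_add_eta hA)

theorem tendsto_inv [Nonempty ι] : Tendsto (fun r => (1 + D.eta r)⁻¹) atTop (𝓝 1) := by
  have hc : ContinuousAt Inv.inv (1 : Matrix ι ι ℝ) := by
    refine continuousAt_matrix_inv _ ?_
    rw [Matrix.det_one]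
    exact continuousAt_inv₀ (one_ne_zero (α := ℝ)) |>.congr
      (Eventually.of_forall fun x => (Ring.inverse_eq_inv x).symm)
  simpa [Function.comp_def] using hc.tendsto.comp (tendsto_one_add_eta hA)

theorem ord_inv_sub_one [Nonempty ι] (i j : ι) :
    Ord q fun r => (1 + D.eta r)⁻¹ i j - (1 : Matrix ι ι ℝ) i j := by
  have hs : Ord q fun r => -∑ l, D.eta r i l * (1 + D.eta r)⁻¹ l j := by
    refine (Ord.sum fun l _ => ?_).neg
    have := Ord.bdd_mul ((tendsto_pi_nhds.1 (tendsto_pi_nhds.1 (tendsto_inv hA) l)) j)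
      (ord_eta hA i l)
    exact this.congr (Eventually.of_forall fun r => mul_comm _ _)
  refine hs.congr ?_
  filter_upwards [(tendsto_det hA).eventually_ne one_ne_zero] with r hr
  have h := Matrix.mul_nonsing_inv (1 + D.eta r) (isUnit_iff_ne_zero.2 hr)
  rw [Matrix.add_mul, Matrix.one_mul] at h
  have h2 := congrFun (congrFun h i) j
  simp only [Matrix.add_apply, Matrix.mul_apply] at h2
  linarith

theorem ord_trace_inv [Nonempty ι] :
    Ord (q + q) fun r =>
      ((1 + D.eta r)⁻¹).trace - ((Fintype.card ι : ℝ) - (D.eta r).trace) := by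
  have hs : Ord (q + q) fun r =>
      -∑ i, ∑ l, D.eta r i l * ((1 + D.eta r)⁻¹ l i - (1 : Matrix ι ι ℝ) l i) :=
    (Ord.sum fun i _ => Ord.sum fun l _ => (ord_eta hA i l).mul (ord_inv_sub_one hA l i)).neg
  refine hs.congr ?_
  filter_upwards [(tendsto_det hA).eventually_ne one_ne_zero] with r hr
  have h := congrArg Matrix.trace
    (Matrix.mul_nonsing_inv (1 + D.eta r) (isUnit_iff_ne_zero.2 hr))
  rw [Matrix.add_mul, Matrix.one_mul, trace_add, trace_one] at h
  have e : ∑ i, ∑ l, D.eta r i l * ((1 + D.eta r)⁻¹ l i - (1 : Matrix ι ι ℝ) l i) =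
      (D.eta r * (1 + D.eta r)⁻¹).trace - (D.eta r).trace := by
    simp [Matrix.trace, Matrix.mul_apply, mul_sub, Finset.sum_sub_distrib, Matrix.one_apply]
  rw [e]
  linarith

theorem ord_det_rpow [Nonempty ι] (c : ℝ) : Ord q fun r => (1 + D.eta r).det ^ c - 1 := by
  let g : (ι → ι → ℝ) → ℝ := fun X =>
    ∑ σ : Equiv.Perm ι, ((Equiv.Perm.sign σ : ℤ) : ℝ) * ∏ i, X (σ i) i
  have hg : Differentiable ℝ g := by
    simp only [g]
    fun_prop
  let x : ℝ → ι → ι → ℝ := fun r i j => (1 : Matrix ι ι ℝ) i j + D.eta r i j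
  let x₀ : ι → ι → ℝ := fun i j => (1 : Matrix ι ι ℝ) i j
  have hgx : ∀ r, g (x r) = (1 + D.eta r).det := fun r => by
    simp [g, x, Matrix.det_apply']
  have hg0 : g x₀ = 1 := by
    rw [← Matrix.det_one (n := ι) (R := ℝ), Matrix.det_apply']
  have hdet : (fun r => (1 + D.eta r).det - 1) =O[atTop] fun r : ℝ => r ^ (-q) := by
    have hb : (fun r => x r - x₀) =O[atTop] fun r : ℝ => r ^ (-q) :=
      isBigO_pi.2 fun i => isBigO_pi.2 fun j => by simpa [Ord, x, x₀] using ord_eta hA i j
    have ht : Tendsto x atTop (𝓝 x₀) := by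
      refine tendsto_pi_nhds.2 fun i => tendsto_pi_nhds.2 fun j => ?_
      simpa [x, x₀] using ((ord_eta hA i j).tendsto (rate_pos hA)).const_add
        ((1 : Matrix ι ι ℝ) i j)
    have := ((hg x₀).hasFDerivAt.isBigO_sub.comp_tendsto ht).trans hb
    simpa [Function.comp_def, hgx, hg0] using this
  have hp : HasDerivAt (fun y : ℝ => y ^ c) (c * (1 : ℝ) ^ (c - 1)) 1 :=
    Real.hasDerivAt_rpow_const (Or.inl one_ne_zero)
  have := (hp.isBigO_sub.comp_tendsto (tendsto_det hA)).trans hdet
  simpa [Ord, Function.comp_def] using this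

theorem ord_deta (i j : ι) : Ord (q + 1) fun r => D.deta r i j := by
  have h := hA.dmetric i j
  rw [show -q - 1 = -(q + 1) by ring] at h
  exact h

/-- The mass aspect. -/
noncomputable def aspect (D : Data ι) (r : ℝ) : ℝ :=
  D.f r ^ 2 - 1 - r * (D.deta r).trace / Fintype.card ι - (D.eta r).trace / Fintype.card ι

variable (hD : D.Regular)
include hD

theorem flux_eq [Nonempty ι] :
    ∀ᶠ r in atTop,
      2 * D.admFlux r = r ^ ((Fintype.card ι : ℝ) - 1) * aspect D r := by
  filter_upwards [eventually_gt_atTop 0] with r hr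
  have hB : D.tangentAvg r = 1 + (D.eta r).trace / Fintype.card ι := by
    simp only [Data.tangentAvg, Data.eta, trace_sub, trace_smul, trace_one, smul_eq_mul]
    field_simp
    ring
  have hB' : HasDerivAt D.tangentAvg ((D.deta r).trace / Fintype.card ι) r := by
    have hm : MD (fun s => Matrix.of fun i j => D.h s i j / s ^ 2) (D.deta r) r := fun i j =>
      (((hD.smooth_h i j).differentiable (by norm_num) r).div (differentiableAt_pow 2)
        (pow_ne_zero 2 hr.ne')).hasDerivAt
    refine (hm.trace.div_const (Fintype.card ι : ℝ)).congr_of_eventuallyEq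
      (Eventually.of_forall fun s => ?_)
    simp only [Data.tangentAvg, Matrix.trace, Matrix.diag, Matrix.of_apply]
    rw [← Finset.sum_div, div_div, mul_comm]
  simp only [Data.admFlux, hB'.deriv, hB, aspect]
  rw [Real.rpow_sub_one hr.ne', Real.rpow_natCast]
  field_simp
  ring

/-- The rescaled mean curvature and trace of `K`. -/
theorem scaled_H_P [Nonempty ι] :
    Ord (q + q) (fun r => r * (D.f r * D.H r) -
        ((Fintype.card ι : ℝ) + r * (D.deta r).trace / 2)) ∧
      Ord q (fun r => r * D.P r) := by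
  constructor
  · have hs : Ord (q + q) fun r => r * ((1 / 2) * ∑ i, ∑ l,
        ((1 + D.eta r)⁻¹ i l - (1 : Matrix ι ι ℝ) i l) * D.deta r l i) := by
      refine Ord.mul_id ((Ord.sum fun i _ => Ord.sum fun l _ => ?_).const_mul (1 / 2))
      rw [add_assoc]
      exact (ord_inv_sub_one hA i l).mul (ord_deta hA l i)
    refine hs.congr ?_
    filter_upwards [eventually_gt_atTop 0, (tendsto_det hA).eventually_ne one_ne_zero,
      eventually_ge_atTop D.r₀] with r hr hdet hr0
    have hf := (hD.f_pos r hr0).ne'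
    have hdh : D.dh r = (2 * r) • (1 + D.eta r) + r ^ 2 • D.deta r := by
      ext i j
      have hdiff := (hD.smooth_h i j).differentiable (by norm_num) r
      have h1 : HasDerivAt (fun s => s ^ 2 * (D.h s i j / s ^ 2))
          (2 * r * (D.h r i j / r ^ 2) + r ^ 2 * D.deta r i j) r := by
        have := (hasDerivAt_pow 2 r).mul
          ((hdiff.div (differentiableAt_pow 2) (pow_ne_zero 2 hr.ne')).hasDerivAt)
        exact this.congr_deriv (by simp [Data.deta, Pi.div_def])
      have h2 : HasDerivAt (fun s => D.h s i j)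
          (2 * r * (D.h r i j / r ^ 2) + r ^ 2 * D.deta r i j) r := by
        refine h1.congr_of_eventuallyEq ?_
        filter_upwards [eventually_ne_nhds hr.ne'] with s hs
        field_simp
      rw [Data.dh, Matrix.of_apply, h2.deriv]
      simp [Data.eta, div_eq_inv_mul]
    have hinv : (D.h r)⁻¹ = (r ^ 2)⁻¹ • (1 + D.eta r)⁻¹ := by
      refine Matrix.inv_eq_right_inv ?_
      rw [D.h_eq hr.ne', Matrix.smul_mul, Matrix.mul_smul, smul_smul,
        mul_inv_cancel₀ (pow_ne_zero 2 hr.ne'), one_smul,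
        Matrix.mul_nonsing_inv _ (isUnit_iff_ne_zero.2 hdet)]
    have e : ∑ i, ∑ l, ((1 + D.eta r)⁻¹ i l - (1 : Matrix ι ι ℝ) i l) * D.deta r l i =
        ((1 + D.eta r)⁻¹ * D.deta r).trace - (D.deta r).trace := by
      simp [Matrix.trace, Matrix.mul_apply, sub_mul, Finset.sum_sub_distrib, Matrix.one_apply]
    simp only [Data.H, Data.shape, hdh, hinv, e, Matrix.mul_add, Matrix.smul_mul, Matrix.mul_smul,
      trace_smul, trace_add, smul_eq_mul]
    have e2 := congrArg Matrix.trace
      (Matrix.nonsing_inv_mul (1 + D.eta r) (isUnit_iff_ne_zero.2 hdet))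
    rw [Matrix.mul_add, trace_add, trace_one] at e2
    rw [← e2]
    field_simp
    ring
  · have hs : Ord q fun r => r * ∑ i, ∑ l, (1 + D.eta r)⁻¹ i l * (D.Kt r l i / r ^ 2) := by
      refine Ord.mul_id (Ord.sum fun i _ => Ord.sum fun l _ => ?_)
      refine Ord.bdd_mul ((tendsto_pi_nhds.1 (tendsto_pi_nhds.1 (tendsto_inv hA) i)) l) ?_
      have h := hA.second l i
      rw [show -q - 1 = -(q + 1) by ring] at h
      exact h
    refine hs.congr ?_
    filter_upwards [eventually_gt_atTop 0, (tendsto_det hA).eventually_ne one_ne_zero]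
      with r hr hdet
    have hinv : (D.h r)⁻¹ = (r ^ 2)⁻¹ • (1 + D.eta r)⁻¹ := by
      refine Matrix.inv_eq_right_inv ?_
      rw [D.h_eq hr.ne', Matrix.smul_mul, Matrix.mul_smul, smul_smul,
        mul_inv_cancel₀ (pow_ne_zero 2 hr.ne'), one_smul,
        Matrix.mul_nonsing_inv _ (isUnit_iff_ne_zero.2 hdet)]
    simp only [Data.P, Data.kop, hinv, Matrix.trace, Matrix.diag, Matrix.mul_apply,
      Matrix.smul_apply, smul_eq_mul]
    refine congrArg (r * ·) (Finset.sum_congr rfl fun i _ => Finset.sum_congr rfl fun l _ => ?_)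
    ring

theorem eventually_untrapped [Nonempty ι] : ∀ᶠ r in atTop, |D.P r| < D.H r := by
  obtain ⟨h1, h2⟩ := scaled_H_P hA hD
  have hq := rate_pos hA
  have h3 : Tendsto (fun r => r * (D.deta r).trace / 2) atTop (𝓝 0) := by
    simpa [Matrix.trace] using (Ord.mul_id (Ord.sum fun i (_ : i ∈ Finset.univ) =>
      ord_deta hA i i)).tendsto hq |>.div_const 2
  have h4 : Tendsto (fun r => r * (D.f r * D.H r)) atTop (𝓝 (Fintype.card ι)) := by
    simpa using (h1.tendsto (add_pos hq hq)).add (h3.const_add (Fintype.card ι : ℝ))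
  have h5 : Tendsto (fun r => r * (D.f r * |D.P r|)) atTop (𝓝 0) := by
    have hf : Tendsto D.f atTop (𝓝 1) := by
      have := ((hA.lapse.trans_tendsto (tendsto_rpow_neg_atTop hq)).add_const 1).sqrt
      simp only [zero_add, Real.sqrt_one, sub_add_cancel] at this
      refine this.congr' ?_
      filter_upwards [eventually_ge_atTop D.r₀] with r hr
      exact Real.sqrt_sq (hD.f_pos r hr).le
    have h6 := hf.mul (h2.tendsto hq).abs
    simp only [abs_zero, mul_zero] at h6
    refine h6.congr' ?_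
    filter_upwards [eventually_gt_atTop 0] with r hr
    rw [abs_mul, abs_of_pos hr]; ring
  filter_upwards [h5.eventually_lt h4 (by exact_mod_cast Fintype.card_pos),
    eventually_gt_atTop 0, eventually_ge_atTop D.r₀] with r h hr hr0
  exact lt_of_mul_lt_mul_left (lt_of_mul_lt_mul_left h hr.le) (hD.f_pos r hr0).le

theorem tendsto_mass_sub_flux [Nonempty ι] :
    Tendsto (fun r => D.mass r - 2 * D.admFlux r) atTop (𝓝 0) := by
  obtain ⟨hu, hp⟩ := scaled_H_P hA hD
  have hq := rate_pos hA
  set N : ℝ := (Fintype.card ι : ℝ) with hNdef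
  have hN0 : 0 < N := by positivity
  set c := (N - 1) / N / 2 with hc
  let φ : ℝ → ℝ := fun r => D.f r ^ 2 - 1
  let s : ℝ → ℝ := fun r => (D.eta r).trace
  let u : ℝ → ℝ := fun r => r * (D.deta r).trace / 2
  let e₁ : ℝ → ℝ := fun r => r * (D.f r * D.H r) - (N + u r)
  let e₂ : ℝ → ℝ := fun r => ((1 + D.eta r)⁻¹).trace - (N - s r)
  let p : ℝ → ℝ := fun r => r * D.P r
  let Y : ℝ → ℝ := fun r => aspect D r
  have hφ : Ord q φ := hA.lapse
  have hs : Ord q s := Ord.sum fun i (_ : i ∈ Finset.univ) => ord_eta hA i i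
  have hu0 : Ord q u := by
    refine ((Ord.mul_id (Ord.sum fun i (_ : i ∈ Finset.univ) => ord_deta hA i i)).const_mul
      (1 / 2)).congr (Eventually.of_forall fun r => ?_)
    simp only [u, Matrix.trace, Matrix.diag]
    ring
  have hY : Ord q Y := by
    refine ((hφ.sub (hu0.const_mul (2 / N))).sub (hs.const_mul (1 / N))).congr
      (Eventually.of_forall fun r => ?_)
    simp only [φ, s, u, Y, aspect, ← hNdef]
    field_simp
  have t0 : ∀ {F : ℝ → ℝ}, Ord q F → Tendsto F atTop (𝓝 0) := fun h => h.tendsto hq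
  have he₁ : Ord (q + q) e₁ := hu
  have he₂ : Ord (q + q) e₂ := ord_trace_inv hA
  have te₁ := he₁.tendsto (add_pos hq hq)
  have tlapse : Tendsto (fun r => 1 + φ r) atTop (𝓝 1) := by simpa using (t0 hφ).const_add 1
  have tY : Tendsto (fun r => 1 - Y r) atTop (𝓝 1) := by simpa using (t0 hY).const_sub 1
  have tNs : Tendsto (fun r => N - s r) atTop (𝓝 N) := by simpa using (t0 hs).const_sub N
  have ttr : Tendsto (fun r => ((1 + D.eta r)⁻¹).trace) atTop (𝓝 N) := by
    have := (he₂.tendsto (add_pos hq hq)).add tNs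
    simpa [e₂] using this
  let den : ℝ → ℝ := fun r => N * (1 + φ r) * ((1 + D.eta r)⁻¹).trace
  have tden : Tendsto den atTop (𝓝 (N * N)) := by
    simpa [den] using (tlapse.const_mul N).mul ttr
  let num : ℝ → ℝ := fun r =>
    N * (1 + φ r) * (1 - Y r) * e₂ r +
      N * (-((2 * u r + s r) / N) * s r - φ r * Y r * (N - s r)) -
      (u r * u r + e₁ r * (2 * (N + u r) + e₁ r)) + (1 + φ r) * (p r * p r)
  have hnum : Ord (q + q) num := by
    refine (((Ord.bdd_mul ((tlapse.const_mul N).mul tY) he₂).add ?_).sub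
      ((hu0.mul hu0).add ?_)).add (Ord.bdd_mul tlapse (hp.mul hp))
    · refine ((?_ : Ord (q + q) fun r => -((2 * u r + s r) / N) * s r).sub ?_).const_mul N
      · refine (((hu0.const_mul (-2 / N)).add (hs.const_mul (-1 / N))).mul hs).congr
          (Eventually.of_forall fun r => ?_)
        ring
      · refine (Ord.bdd_mul tNs (hφ.mul hY)).congr (Eventually.of_forall fun r => ?_)
        ring
    · have tt : Tendsto (fun r => 2 * (N + u r) + e₁ r) atTop (𝓝 (2 * N)) := by
        simpa using (((t0 hu0).const_add N).const_mul 2).add te₁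
      exact (Ord.bdd_mul tt he₁).congr (Eventually.of_forall fun r => mul_comm _ _)
  have hX : Ord (q + q) fun r =>
      (1 - (D.H r ^ 2 - D.P r ^ 2) / (N * D.T r)) - Y r := by
    refine (Ord.bdd_mul (tden.inv₀ (by positivity)) hnum).congr ?_
    filter_upwards [eventually_gt_atTop 0, (tendsto_det hA).eventually_ne one_ne_zero,
      tden.eventually_ne (by positivity), eventually_ge_atTop D.r₀] with r hr hdet hden hr0
    have hinv : (D.h r)⁻¹ = (r ^ 2)⁻¹ • (1 + D.eta r)⁻¹ := by
      refine Matrix.inv_eq_right_inv ?_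
      rw [D.h_eq hr.ne', Matrix.smul_mul, Matrix.mul_smul, smul_smul,
        mul_inv_cancel₀ (pow_ne_zero 2 hr.ne'), one_smul,
        Matrix.mul_nonsing_inv _ (isUnit_iff_ne_zero.2 hdet)]
    have hT : D.T r = (r ^ 2)⁻¹ * ((1 + D.eta r)⁻¹).trace := by
      simp [Data.T, hinv, trace_smul]
    have hf := (hD.f_pos r hr0).ne'
    have hH : N + u r + e₁ r = r * (D.f r * D.H r) := by simp only [e₁]; ring
    have htr : N - s r + e₂ r = ((1 + D.eta r)⁻¹).trace := by simp only [e₂]; ring
    have hY' : Y r = φ r - (2 * u r + s r) / N := by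
      simp only [φ, s, u, Y, aspect, ← hNdef]
      field_simp
      ring
    have key : num r = N * (1 + φ r) * (N - s r + e₂ r) * (1 - Y r) -
        (N + u r + e₁ r) ^ 2 + (1 + φ r) * p r ^ 2 := by
      simp only [num, hY']
      field_simp
      ring
    rw [hH, htr] at key
    simp only [key, den, hT, p, φ] at hden ⊢
    have h1 : ((1 + D.eta r)⁻¹).trace ≠ 0 := fun h => hden (by rw [h, mul_zero])
    rw [show (1 : ℝ) + (D.f r ^ 2 - 1) = D.f r ^ 2 by ring]
    field_simp
    ring
  have hXq : Ord q fun r => 1 - (D.H r ^ 2 - D.P r ^ 2) / (N * D.T r) := by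
    have hw : Ord q fun r => (1 - (D.H r ^ 2 - D.P r ^ 2) / (N * D.T r)) - Y r := by
      refine IsBigO.trans hX (IsBigO.of_bound 1 ?_)
      filter_upwards [eventually_ge_atTop 1] with r hr
      rw [one_mul, Real.norm_of_nonneg (by positivity), Real.norm_of_nonneg (by positivity)]
      exact Real.rpow_le_rpow_of_exponent_le hr (by linarith)
    exact (hw.add hY).congr (Eventually.of_forall fun r => sub_add_cancel _ _)
  have htot := ((ord_det_rpow hA c).mul hXq).add hX
  have hrate : N - 1 + -(q + q) < 0 := by have := hA.rate; rw [← hNdef] at this; linarith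
  have hlim : Tendsto (fun r : ℝ => r ^ (N - 1) * r ^ (-(q + q))) atTop (𝓝 0) := by
    have := tendsto_rpow_neg_atTop (neg_pos.2 hrate)
    rw [neg_neg] at this
    refine this.congr' ?_
    filter_upwards [eventually_gt_atTop 0] with r hr
    rw [← Real.rpow_add hr]
  refine (((isBigO_refl (fun r : ℝ => r ^ (N - 1)) atTop).mul htot).trans_tendsto hlim).congr' ?_
  filter_upwards [eventually_gt_atTop 0, flux_eq hA hD,
    (tendsto_det hA).eventually_const_lt (zero_lt_one (α := ℝ))] with r hr hflux hdet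
  have hpow : (D.h r).det ^ c = r ^ (N - 1) * (1 + D.eta r).det ^ c := by
    rw [D.h_eq hr.ne', Matrix.det_smul, Real.mul_rpow (by positivity) hdet.le, ← pow_mul,
      ← Real.rpow_natCast r, ← Real.rpow_mul hr.le]
    congr 2
    push_cast
    rw [hc, ← hNdef]
    field_simp
  rw [hflux, Data.mass, ← hNdef, ← hc, hpow]
  simp only [Y]
  ring

end Data

end Vale.Agent.P366.Cohom
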