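import Vale.Agent.P366.Cohom.Defs

/-!
Entrywise calculus of matrix curves, and positivity of squares of self-adjoint operators.
-/

open Matrix Filter Topology
open scoped MatrixOrder

namespace Vale.Agent.P366.Cohom

variable {ι : Type} [Fintype ι] [DecidableEq ι] {A B : ℝ → Matrix ι ι ℝ} {A' B' : Matrix ι ι ℝ}
  {r : ℝ}

/-- Entrywise differentiability of a curve of matrices. -/
def MD (A : ℝ → Matrix ι ι ℝ) (A' : Matrix ι ι ℝ) (r : ℝ) : Prop :=
  ∀ i j, HasDerivAt (fun s => A s i j) (A' i j) r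

omit [DecidableEq ι] in
theorem MD.mul (hA : MD A A' r) (hB : MD B B' r) :
    MD (fun s => A s * B s) (A' * B r + A r * B') r := by
  intro i j
  simp only [Matrix.add_apply, Matrix.mul_apply, ← Finset.sum_add_distrib]
  exact HasDerivAt.fun_sum fun l _ => (hA i l).mul (hB l j)

omit [DecidableEq ι] in
theorem MD.trace (hA : MD A A' r) : HasDerivAt (fun s => (A s).trace) A'.trace r := by
  simp only [Matrix.trace, Matrix.diag]
  exact HasDerivAt.fun_sum fun l _ => hA l l

theorem MD.det (hA : MD A A' r) :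
    HasDerivAt (fun s => (A s).det) ((A r).adjugate * A').trace r := by
  have h1 : HasDerivAt (fun s => ∑ σ : Equiv.Perm ι, ((Equiv.Perm.sign σ : ℤ) : ℝ) *
      ∏ i, A s (σ i) i) (∑ σ : Equiv.Perm ι, ((Equiv.Perm.sign σ : ℤ) : ℝ) *
        ∑ i, (∏ j ∈ Finset.univ.erase i, A r (σ j) j) * A' (σ i) i) r := by
    refine HasDerivAt.fun_sum fun σ _ => HasDerivAt.const_mul _ ?_
    simpa using HasDerivAt.fun_finset_prod (u := Finset.univ) fun i _ => hA (σ i) i
  have e1 : ∀ M : Matrix ι ι ℝ, M.det =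
      ∑ σ : Equiv.Perm ι, ((Equiv.Perm.sign σ : ℤ) : ℝ) * ∏ i, M (σ i) i :=
    fun M => Matrix.det_apply' M
  simp only [← e1] at h1
  refine h1.congr_deriv ?_
  simp only [Finset.mul_sum]
  rw [Finset.sum_comm]
  simp only [Matrix.trace, Matrix.diag, Matrix.mul_apply]
  refine Finset.sum_congr rfl fun i _ => ?_
  have e2 : ∑ l, (A r).adjugate i l * A' l i = ((A r).updateCol i (fun l => A' l i)).det := by
    rw [← Matrix.cramer_apply, Matrix.cramer_eq_adjugate_mulVec]
    rfl
  rw [e2, e1]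
  refine Finset.sum_congr rfl fun σ _ => ?_
  congr 1
  rw [← Finset.prod_erase_mul _ _ (Finset.mem_univ i)]
  congr 1
  · exact Finset.prod_congr rfl fun j hj => by simp [Finset.ne_of_mem_erase hj]
  · simp

theorem MD.det_of_ne (hA : MD A A' r) (h : (A r).det ≠ 0) :
    HasDerivAt (fun s => (A s).det) ((A r).det * ((A r)⁻¹ * A').trace) r := by
  refine hA.det.congr_deriv ?_
  rw [Matrix.inv_def, Ring.inverse_eq_inv', smul_mul, trace_smul, smul_eq_mul, mul_inv_cancel_left₀ h]

theorem MD.inv (hA : MD A A' r) (h : (A r).det ≠ 0) :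
    MD (fun s => (A s)⁻¹) (-((A r)⁻¹ * A' * (A r)⁻¹)) r := by
  have hd : ∀ i j, DifferentiableAt ℝ (fun s => (A s)⁻¹ i j) r := by
    intro i j
    have h1 : MD (fun s => (A s).updateRow j (Pi.single i 1))
        (A'.updateRow j 0) r := by
      intro a b
      rcases eq_or_ne a j with rfl | hne
      · simpa using hasDerivAt_const r ((Pi.single i 1 : ι → ℝ) b)
      · simpa [hne] using hA a b
    have h2 := (hA.det.inv h).mul h1.det
    refine h2.differentiableAt.congr_of_eventuallyEq (Eventually.of_forall fun s => ?_)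
    simp [Matrix.inv_def, adjugate_apply]
  set L' : Matrix ι ι ℝ := Matrix.of fun i j => deriv (fun s => (A s)⁻¹ i j) r
  have hL : MD (fun s => (A s)⁻¹) L' r := fun i j => (hd i j).hasDerivAt
  have hc : ∀ᶠ s in 𝓝 r, (A s).det ≠ 0 := hA.det.continuousAt.eventually_ne h
  have key : L' = -((A r)⁻¹ * A' * (A r)⁻¹) := by
    have h0 : A' * (A r)⁻¹ + A r * L' = 0 := by
      ext i j
      have hm := hA.mul hL i j
      have hone : HasDerivAt (fun s => (A s * (A s)⁻¹) i j) 0 r := by
        refine (hasDerivAt_const r ((1 : Matrix ι ι ℝ) i j)).congr_of_eventuallyEq ?_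
        filter_upwards [hc] with s hs
        rw [Matrix.mul_nonsing_inv _ (isUnit_iff_ne_zero.2 hs)]
      exact hm.unique hone
    have h1 := congrArg (fun X => (A r)⁻¹ * X) (eq_neg_of_add_eq_zero_right h0)
    rw [← Matrix.mul_assoc, Matrix.nonsing_inv_mul _ (isUnit_iff_ne_zero.2 h), Matrix.one_mul] at h1
    rw [h1, Matrix.mul_neg, Matrix.mul_assoc]
  rwa [key] at hL

theorem trace_mul_nonneg {P Q : Matrix ι ι ℝ} (hP : P.PosSemidef) (hQ : Q.PosSemidef) :
    0 ≤ (P * Q).trace := by
  have hs : CFC.sqrt P * CFC.sqrt P = P := CFC.sqrt_mul_sqrt_self P hP.nonneg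
  have hh : (CFC.sqrt P).IsHermitian := (Matrix.nonneg_iff_posSemidef.1 (CFC.sqrt_nonneg P)).1
  have h1 := (hQ.conjTranspose_mul_mul_same (CFC.sqrt P)).trace_nonneg
  rw [hh.eq, Matrix.trace_mul_cycle, hs] at h1
  exact h1

/-- The square of an operator self-adjoint for a positive definite metric has nonnegative
trace. -/
theorem trace_sq_nonneg {L S : Matrix ι ι ℝ} (hL : L.PosSemidef) (hS : S.IsHermitian) :
    0 ≤ (L * S * (L * S)).trace := by
  have h := trace_mul_nonneg hL (hL.conjTranspose_mul_mul_same S)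
  rw [hS.eq] at h
  simpa [Matrix.mul_assoc] using h

end Vale.Agent.P366.Cohom
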