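import Mathlib

/-!
Initial data of cohomogeneity one on an exterior `[r₀, ∞) × Sᴺ`, `N + 1 = n`.

The orbit metric `h r` and the tangential part `Kt r` of the second fundamental form are given by
their matrices in a frame that is orthonormal for the round unit metric. The metric is
`f² dr² + h r`, the unit normal of an orbit is `ν = f⁻¹ ∂ᵣ`, `k = K (ν, ν)`, `kmix = K (ν, ·)`, and
`R r` is the scalar curvature of the orbit metric. The dependence of the scalar curvature of the
exterior and of `J (ν)` on these functions is the one of the Gauss and Codazzi equations.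
-/

open Matrix Filter Topology Asymptotics

namespace Vale.Agent.P366.Cohom

variable {ι : Type} [Fintype ι] [DecidableEq ι]

/-- Cohomogeneity-one data, in adapted coordinates. -/
structure Data (ι : Type) where
  /-- The inner radius. -/
  r₀ : ℝ
  /-- The lapse. -/
  f : ℝ → ℝ
  /-- The orbit metric. -/
  h : ℝ → Matrix ι ι ℝ
  /-- The tangential part of the second fundamental form. -/
  Kt : ℝ → Matrix ι ι ℝ
  /-- The normal part of the second fundamental form. -/
  k : ℝ → ℝ
  /-- The mixed part of the second fundamental form. -/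
  kmix : ℝ → ι → ℝ
  /-- The scalar curvature of the orbit. -/
  R : ℝ → ℝ

namespace Data

variable (D : Data ι)

/-- The derivative of the orbit metric, entry by entry. -/
noncomputable def dh (r : ℝ) : Matrix ι ι ℝ := Matrix.of fun i j => deriv (fun s => D.h s i j) r

/-- The shape operator of an orbit for the normal towards the end. -/
noncomputable def shape (r : ℝ) : Matrix ι ι ℝ := (2 * D.f r)⁻¹ • ((D.h r)⁻¹ * D.dh r)

/-- The tangential second fundamental form as an operator. -/
noncomputable def kop (r : ℝ) : Matrix ι ι ℝ := (D.h r)⁻¹ * D.Kt r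

/-- The mean curvature of an orbit. -/
noncomputable def H (r : ℝ) : ℝ := (D.shape r).trace

/-- The trace of `K` along an orbit. -/
noncomputable def P (r : ℝ) : ℝ := (D.kop r).trace

/-- The outward future null expansion of an orbit. -/
noncomputable def thetaPlus (r : ℝ) : ℝ := D.H r + D.P r

/-- The scalar curvature of `f² dr² + h`. -/
noncomputable def scal (r : ℝ) : ℝ :=
  D.R r - 2 * (deriv D.H r / D.f r) - D.H r ^ 2 - (D.shape r * D.shape r).trace

/-- The squared norm of `K`. -/
noncomputable def normK2 (r : ℝ) : ℝ :=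
  D.k r ^ 2 + 2 * (D.kmix r ⬝ᵥ ((D.h r)⁻¹ *ᵥ D.kmix r)) + (D.kop r * D.kop r).trace

/-- The energy density, `2 μ = scal + (tr K)² - |K|²`. -/
noncomputable def mu (r : ℝ) : ℝ := (D.scal r + (D.k r + D.P r) ^ 2 - D.normK2 r) / 2

/-- The normal component of `J = div (K - (tr K) g)`. -/
noncomputable def Jnu (r : ℝ) : ℝ :=
  -(deriv D.P r / D.f r) + D.k r * D.H r - (D.shape r * D.kop r).trace

/-- The area of an orbit divided by the area of the round unit sphere. -/
noncomputable def area (r : ℝ) : ℝ := Real.sqrt (D.h r).det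

/-- The angular average of the metric in Cartesian coordinates, on vectors tangent to a sphere. -/
noncomputable def tangentAvg (r : ℝ) : ℝ := (D.h r).trace / (Fintype.card ι * r ^ 2)

/-- The ADM energy integral over the coordinate sphere of radius `r`. -/
noncomputable def admFlux (r : ℝ) : ℝ :=
  r ^ Fintype.card ι * ((D.f r ^ 2 - D.tangentAvg r) / r - deriv D.tangentAvg r) / 2

/-- Regularity up to the boundary. -/
structure Regular (D : Data ι) : Prop where
  r₀_pos : 0 < D.r₀
  smooth_f : ContDiff ℝ 1 D.f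
  smooth_h : ∀ i j, ContDiff ℝ 2 fun s => D.h s i j
  smooth_Kt : ∀ i j, ContDiff ℝ 1 fun s => D.Kt s i j
  f_pos : ∀ r, D.r₀ ≤ r → 0 < D.f r
  h_pos : ∀ r, D.r₀ ≤ r → (D.h r).PosDef
  Kt_symm : ∀ r, D.r₀ ≤ r → (D.Kt r).IsHermitian

/-- Asymptotic flatness, with a rate `q > (n - 2) / 2`. -/
structure AFlat (D : Data ι) (q : ℝ) : Prop where
  rate : ((Fintype.card ι : ℝ) - 1) / 2 < q
  lapse : (fun r => D.f r ^ 2 - 1) =O[atTop] fun r => r ^ (-q)
  metric : ∀ i j, (fun r => D.h r i j / r ^ 2 - (1 : Matrix ι ι ℝ) i j) =O[atTop] fun r => r ^ (-q)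
  dmetric : ∀ i j, (fun r => deriv (fun s => D.h s i j / s ^ 2) r) =O[atTop] fun r => r ^ (-q - 1)
  second : ∀ i j, (fun r => D.Kt r i j / r ^ 2) =O[atTop] fun r => r ^ (-q - 1)

/-- The dominant energy condition, tested on the normal component of `J`. -/
def DEC : Prop := ∀ r, D.r₀ ≤ r → |D.Jnu r| ≤ D.mu r

/-- The Penrose bound by the least orbit area: every value of the ADM energy is at least
`(inf area / ω)^((n-2)/(n-1)) / 2`. -/
def PenroseBound : Prop :=
  ∀ E : ℝ, Tendsto D.admFlux atTop (𝓝 E) →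
    1 / 2 * sInf (D.area '' Set.Ici D.r₀) ^ (((Fintype.card ι : ℝ) - 1) / Fintype.card ι) ≤ E

end Data

/-- The invariant metrics on `S^{d+e}` of the fibrations with fibre `S^d`: scale `a` on the
`e`-dimensional horizontal space, `b` on the fibres, with their scalar curvature. -/
def HopfOrbit (d e : ℕ) (h : Matrix (Fin e ⊕ Fin d) (Fin e ⊕ Fin d) ℝ) (R : ℝ) : Prop :=
  ∃ a b : ℝ, 0 < a ∧ 0 < b ∧ h = fromBlocks (a ^ 2 • 1) 0 0 (b ^ 2 • 1) ∧
    R = (e : ℝ) * (e + 3 * d - 1) / a ^ 2 + (d : ℝ) * (d - 1) / b ^ 2 -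
      (d : ℝ) * e * b ^ 2 / a ^ 4

/-- The `Sp(k+1)`-invariant metrics on `S^{4k+3}`: scale `a` on the horizontal space, any inner
product `Q` on the fibre, with their scalar curvature. -/
def SpOrbit (k : ℕ) (h : Matrix (Fin (4 * k) ⊕ Fin 3) (Fin (4 * k) ⊕ Fin 3) ℝ) (R : ℝ) : Prop :=
  ∃ (a : ℝ) (Q : Matrix (Fin 3) (Fin 3) ℝ), 0 < a ∧ Q.PosDef ∧
    h = fromBlocks (a ^ 2 • 1) 0 0 Q ∧
    R = 16 * (k : ℝ) * (k + 2) / a ^ 2 + 2 * (Q.trace ^ 2 - 2 * (Q * Q).trace) / Q.det -
      4 * (k : ℝ) * Q.trace / a ^ 4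

end Vale.Agent.P366.Cohom
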