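import Vale.Agent.P366.Cohom.Mono

/-!
The curvature condition holds for every invariant metric on a sphere.
-/

open Matrix

namespace Vale.Agent.P366.Cohom

theorem trace_blocks {m n : Type} [Fintype m] [Fintype n] (A : Matrix m m ℝ) (B : Matrix m n ℝ)
    (C : Matrix n m ℝ) (D : Matrix n n ℝ) : (fromBlocks A B C D).trace = A.trace + D.trace := by
  simp [Matrix.trace, Fintype.sum_sum_type]

theorem hopf_bound {d e : ℕ} (hd : 1 ≤ d) {h : Matrix (Fin e ⊕ Fin d) (Fin e ⊕ Fin d) ℝ} {R : ℝ}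
    (hh : HopfOrbit d e h R) : OrbitBound h R := by
  obtain ⟨a, b, ha, hb, rfl, rfl⟩ := hh
  have hinv : (fromBlocks (a ^ 2 • (1 : Matrix (Fin e) (Fin e) ℝ)) 0 0
      (b ^ 2 • (1 : Matrix (Fin d) (Fin d) ℝ)))⁻¹ =
      fromBlocks ((a ^ 2)⁻¹ • 1) 0 0 ((b ^ 2)⁻¹ • 1) := by
    refine Matrix.inv_eq_right_inv ?_
    simp [fromBlocks_multiply, smul_smul, ha.ne', hb.ne', fromBlocks_one]
  unfold OrbitBound
  rw [hinv]
  simp only [fromBlocks_multiply, Matrix.mul_zero, Matrix.zero_mul, add_zero, zero_add,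
    Matrix.smul_mul, Matrix.mul_smul, Matrix.one_mul, smul_smul, trace_blocks, smul_zero,
    trace_smul, trace_one, Fintype.card_fin, Fintype.card_sum, smul_eq_mul, Nat.cast_add]
  set A := (a ^ 2)⁻¹ with hA
  set B := (b ^ 2)⁻¹ with hB
  have hA0 : 0 < A := by positivity
  have hB0 : 0 < B := by positivity
  have e1 : ((e : ℝ) * ((e : ℝ) + 3 * d - 1) / a ^ 2 + (d : ℝ) * (d - 1) / b ^ 2 -
      (d : ℝ) * e * b ^ 2 / a ^ 4) =
      (e : ℝ) * ((e : ℝ) + 3 * d - 1) * A + (d : ℝ) * (d - 1) * B - (d : ℝ) * e * A ^ 2 / B := by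
    rw [hA, hB]
    field_simp
  rw [e1]
  have hd' : (1 : ℝ) ≤ d := by exact_mod_cast hd
  have key : ((e : ℝ) + d) * (A * (e : ℝ) + B * d) ^ 2 -
      (((e : ℝ) * ((e : ℝ) + 3 * d - 1) * A + (d : ℝ) * (d - 1) * B - (d : ℝ) * e * A ^ 2 / B) *
        (A * (e : ℝ) + B * d) + ((e : ℝ) + d) * (A * A * (e : ℝ) + B * B * d)) =
      (d : ℝ) * e * (A - B) ^ 2 * (((d : ℝ) - 1) * B + e * A) / B := by
    field_simp
    ring
  have h0 : 0 ≤ (d : ℝ) * e * (A - B) ^ 2 * (((d : ℝ) - 1) * B + e * A) / B := by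
    have : 0 ≤ ((d : ℝ) - 1) * B + e * A :=
      add_nonneg (mul_nonneg (by linarith) hB0.le) (by positivity)
    positivity
  linarith

theorem sp_c0 {a b c : ℝ} (ha : 0 < a) (hb : 0 < b) (hc : 0 < c) :
    0 ≤ 6 * (a * b + b * c + c * a) - 4 * (a + b + c) ^ 2 +
      2 * (a * b / c + b * c / a + c * a / b) * (a + b + c) := by
  have e : 6 * (a * b + b * c + c * a) - 4 * (a + b + c) ^ 2 +
      2 * (a * b / c + b * c / a + c * a / b) * (a + b + c) =
      2 * (3 * (a * b + b * c + c * a) * (a * b * c) - 2 * (a + b + c) ^ 2 * (a * b * c) +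
        ((a * b) ^ 2 + (b * c) ^ 2 + (c * a) ^ 2) * (a + b + c)) / (a * b * c) := by
    field_simp
    ring
  rw [e]
  refine div_nonneg (mul_nonneg two_pos.le ?_) (by positivity)
  rcases le_total a b with h1 | h1 <;> rcases le_total b c with h2 | h2 <;>
    rcases le_total a c with h3 | h3 <;>
    nlinarith [mul_pos ha hb, mul_pos hb hc, mul_pos hc ha, mul_pos (mul_pos ha hb) hc,
      mul_nonneg ha.le (sq_nonneg (b - c)), mul_nonneg hb.le (sq_nonneg (c - a)),
      mul_nonneg hc.le (sq_nonneg (a - b)), sq_nonneg (a * b - b * c), sq_nonneg (b * c - c * a),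
      sq_nonneg (c * a - a * b)]

theorem sp_c1 {a b c : ℝ} (ha : 0 < a) (hb : 0 < b) (hc : 0 < c) :
    0 ≤ -3 - 6 * (a + b + c) + 2 * (a * b + b * c + c * a) +
      2 * (a * b / c + b * c / a + c * a / b) + (1 / a + 1 / b + 1 / c) * (a + b + c) := by
  have am : ∀ x y : ℝ, 0 ≤ x → 0 < y → 2 * x ≤ x * y + x / y := fun x y hx hy => by
    have h : x * y + x / y - 2 * x = x * (y - 1) ^ 2 / y := by field_simp; ring
    have : 0 ≤ x * (y - 1) ^ 2 / y := by positivity
    linarith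
  have p1 := am a b ha.le hb
  have p2 := am a c ha.le hc
  have p3 := am b a hb.le ha
  have p4 := am b c hb.le hc
  have p5 := am c a hc.le ha
  have p6 := am c b hc.le hb
  have hS : a + b + c ≤ a * b / c + b * c / a + c * a / b := by
    have h : a * b / c + b * c / a + c * a / b - (a + b + c) =
        ((a * b - b * c) ^ 2 + (b * c - c * a) ^ 2 + (c * a - a * b) ^ 2) / (2 * (a * b * c)) := by
      field_simp
      ring
    have : 0 ≤ ((a * b - b * c) ^ 2 + (b * c - c * a) ^ 2 + (c * a - a * b) ^ 2) /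
        (2 * (a * b * c)) := by positivity
    linarith
  have hr : (1 / a + 1 / b + 1 / c) * (a + b + c) =
      3 + (a / b + a / c + b / a + b / c + c / a + c / b) := by field_simp; ring
  rw [hr]
  linarith

theorem sp_c2 {a b c : ℝ} (ha : 0 < a) (hb : 0 < b) (hc : 0 < c) :
    0 ≤ -6 + (a + b + c) + (1 / a + 1 / b + 1 / c) := by
  have am : ∀ y : ℝ, 0 < y → 2 ≤ y + 1 / y := fun y hy => by
    have h : y + 1 / y - 2 = (y - 1) ^ 2 / y := by field_simp; ring
    have : 0 ≤ (y - 1) ^ 2 / y := by positivity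
    linarith
  linarith [am a ha, am b hb, am c hc]

/-- The inequality for one horizontal scale `A` and the inverse fibre eigenvalues `u, v, w`. -/
theorem sp_scalar {e A u v w : ℝ} (he : 0 ≤ e) (hA : 0 < A) (hu : 0 < u) (hv : 0 < v)
    (hw : 0 < w) :
    (e * (e + 8) * A + (4 * (u + v + w) - 2 * (u * v / w + v * w / u + w * u / v)) -
        e * A ^ 2 * (1 / u + 1 / v + 1 / w)) * (e * A + (u + v + w)) +
      (e + 3) * (e * A ^ 2 + (u ^ 2 + v ^ 2 + w ^ 2)) ≤
      (e + 3) * (e * A + (u + v + w)) ^ 2 := by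
  have key : ∀ a b c : ℝ, 0 < a → 0 < b → 0 < c →
      0 ≤ (e + 3) * (e + (a + b + c)) ^ 2 - ((e * (e + 8) +
        (4 * (a + b + c) - 2 * (a * b / c + b * c / a + c * a / b)) -
          e * (1 / a + 1 / b + 1 / c)) * (e + (a + b + c)) +
        (e + 3) * (e + (a ^ 2 + b ^ 2 + c ^ 2))) := by
    intro a b c ha hb hc
    have h0 := sp_c0 ha hb hc
    have h1 := mul_nonneg he (sp_c1 ha hb hc)
    have h2 := mul_nonneg (mul_nonneg he he) (sp_c2 ha hb hc)
    nlinarith
  have h := mul_nonneg (sq_nonneg A) (key (u / A) (v / A) (w / A) (div_pos hu hA) (div_pos hv hA)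
    (div_pos hw hA))
  rw [← sub_nonneg]
  refine h.trans (le_of_eq ?_)
  field_simp

theorem sp_bound {k : ℕ} {h : Matrix (Fin (4 * k) ⊕ Fin 3) (Fin (4 * k) ⊕ Fin 3) ℝ} {R : ℝ}
    (hh : SpOrbit k h R) : OrbitBound h R := by
  obtain ⟨a, Q, ha, hQ, rfl, rfl⟩ := hh
  set U : Matrix (Fin 3) (Fin 3) ℝ := (hQ.1.eigenvectorUnitary : Matrix (Fin 3) (Fin 3) ℝ)
  set x := hQ.1.eigenvalues
  have hx : ∀ i, 0 < x i := fun i => hQ.eigenvalues_pos i
  have hU : star U * U = 1 := Unitary.coe_star_mul_self _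
  have hU' : U * star U = 1 := Unitary.coe_mul_star_self _
  have hQeq : Q = U * diagonal x * star U := by
    have h1 := hQ.1.spectral_theorem
    rw [Unitary.conjStarAlgAut_apply] at h1
    simpa [U, x] using h1
  have conj : ∀ y z : Fin 3 → ℝ, U * diagonal y * star U * (U * diagonal z * star U) =
      U * diagonal (fun i => y i * z i) * star U := by
    intro y z
    rw [← Matrix.diagonal_mul_diagonal]
    calc U * diagonal y * star U * (U * diagonal z * star U)
        = U * diagonal y * (star U * U) * diagonal z * star U := by simp only [Matrix.mul_assoc]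
      _ = _ := by rw [hU, Matrix.mul_one]; simp only [Matrix.mul_assoc]
  have htr : ∀ y : Fin 3 → ℝ, (U * diagonal y * star U).trace = y 0 + y 1 + y 2 := by
    intro y
    rw [Matrix.trace_mul_cycle, hU, Matrix.one_mul, trace_diagonal, Fin.sum_univ_three]
  have hQi : Q⁻¹ = U * diagonal (fun i => (x i)⁻¹) * star U := by
    refine Matrix.inv_eq_right_inv ?_
    rw [hQeq, conj]
    simp [fun i => mul_inv_cancel₀ (hx i).ne', Matrix.mul_one, hU']
  have hdet : Q.det = x 0 * x 1 * x 2 := by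
    rw [hQ.1.det_eq_prod_eigenvalues, Fin.prod_univ_three]
    simp [x]
  have hinv : (fromBlocks (a ^ 2 • (1 : Matrix (Fin (4 * k)) (Fin (4 * k)) ℝ)) 0 0 Q)⁻¹ =
      fromBlocks ((a ^ 2)⁻¹ • 1) 0 0 Q⁻¹ := by
    refine Matrix.inv_eq_right_inv ?_
    simp [fromBlocks_multiply, smul_smul, ha.ne', fromBlocks_one,
      Matrix.mul_nonsing_inv _ (isUnit_iff_ne_zero.2 hQ.det_pos.ne')]
  unfold OrbitBound
  rw [hinv]
  simp only [fromBlocks_multiply, Matrix.mul_zero, Matrix.zero_mul, add_zero, zero_add,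
    Matrix.smul_mul, Matrix.mul_smul, Matrix.one_mul, smul_smul, trace_blocks, smul_zero,
    trace_smul, trace_one, Fintype.card_fin, Fintype.card_sum, smul_eq_mul, Nat.cast_add]
  rw [hdet, hQi, hQeq, conj, conj, htr, htr, htr, htr]
  have h0 := hx 0
  have h1 := hx 1
  have h2 := hx 2
  have h := sp_scalar (e := 4 * (k : ℝ)) (A := (a ^ 2)⁻¹) (u := (x 0)⁻¹) (v := (x 1)⁻¹)
    (w := (x 2)⁻¹) (by positivity) (by positivity) (inv_pos.2 h0) (inv_pos.2 h1) (inv_pos.2 h2)
  push_cast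
  refine le_trans (le_of_eq ?_) (h.trans (le_of_eq ?_))
  · field_simp
    ring
  · ring

end Vale.Agent.P366.Cohom
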