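import Vale.Agent.P366.Cohom.Asymp
import Vale.Agent.P366.Cohom.Orbit

/-!
The Penrose bound for data of cohomogeneity one.
-/

open Matrix Filter Topology

namespace Vale.Agent.P366.Cohom

variable {ι : Type} [Fintype ι] [DecidableEq ι]

/-- The Penrose bound under the curvature condition on the orbits. -/
theorem penroseBound_of_orbitBound {D : Data ι} {q : ℝ} (hN : 2 ≤ Fintype.card ι) (hD : D.Regular)
    (hA : D.AFlat q) (hE : D.DEC) (hS : D.thetaPlus D.r₀ ≤ 0)
    (hO : ∀ r, D.r₀ ≤ r → OrbitBound (D.h r) (D.R r)) : D.PenroseBound := by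
  have : Nonempty ι := Fintype.card_pos_iff.1 (by omega)
  intro E hlim
  have hHP : ContinuousOn (fun r => D.H r - |D.P r|) (Set.Ici D.r₀) := fun r hr =>
    ((Data.differentiableAt_H hD hr).continuousAt.sub
      (Data.differentiableAt_P hD hr).continuousAt.abs).continuousWithinAt
  set S := Set.Ici D.r₀ ∩ (fun r => D.H r - |D.P r|) ⁻¹' Set.Iic 0
  have hScl : IsClosed S := hHP.preimage_isClosed_of_isClosed isClosed_Ici isClosed_Iic
  have hne : S.Nonempty := by
    refine ⟨D.r₀, Set.self_mem_Ici, ?_⟩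
    simp only [Set.mem_preimage, Set.mem_Iic]
    simp only [Data.thetaPlus] at hS
    linarith [neg_abs_le (D.P D.r₀), abs_nonneg (D.P D.r₀)]
  obtain ⟨R1, hR1⟩ := eventually_atTop.1 (Data.eventually_untrapped hA hD)
  have hbd : BddAbove S := ⟨R1, fun r hr => le_of_not_gt fun h => by
    have h1 := hR1 r h.le
    have h2 : D.H r - |D.P r| ≤ 0 := hr.2
    linarith⟩
  obtain ⟨hs0, hs1⟩ := hScl.csSup_mem hne hbd
  set s := sSup S
  simp only [Set.mem_preimage, Set.mem_Iic] at hs1
  have hafter : ∀ r, s < r → |D.P r| < D.H r := fun r hr => by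
    by_contra h
    rw [not_lt] at h
    exact hr.not_ge (le_csSup hbd ⟨(Set.mem_Ici.1 hs0).trans hr.le, by
      simp only [Set.mem_preimage, Set.mem_Iic]; linarith⟩)
  have hs2 : 0 ≤ D.H s - |D.P s| := by
    refine ge_of_tendsto (((hHP s hs0).mono (Set.Ioi_subset_Ici hs0)).tendsto) ?_
    filter_upwards [self_mem_nhdsWithin] with r hr
    linarith [hafter r hr]
  have hZ : D.H s ^ 2 - D.P s ^ 2 = 0 := by
    rw [show D.H s = |D.P s| by linarith, sq_abs, sub_self]
  set c := ((Fintype.card ι : ℝ) - 1) / Fintype.card ι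
  have hc : 0 ≤ c := div_nonneg (by
    have : (2 : ℝ) ≤ Fintype.card ι := by exact_mod_cast hN
    linarith) (Nat.cast_nonneg _)
  have hms : D.mass s = D.area s ^ c := by
    rw [Data.mass, hZ, zero_div, sub_zero, mul_one, Data.area, Real.sqrt_eq_rpow,
      ← Real.rpow_mul (Data.det_pos hD hs0).le]
    congr 1
    ring
  have hpos : 0 < D.mass s := by
    rw [hms]
    exact Real.rpow_pos_of_pos (Real.sqrt_pos.2 (Data.det_pos hD hs0)) _
  have hd : ∀ r, s < r → HasDerivAt D.mass (deriv D.mass r) r := fun r hr =>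
    (Data.hasDerivAt_mass hD ((Set.mem_Ici.1 hs0).trans hr.le)).differentiableAt.hasDerivAt
  have hmono : ∀ r, s ≤ r → D.mass s ≤ D.mass r := fun r hr => by
    refine le_of_deriv_nonneg_of_pos (fun x hx => ?_) hpos hd (fun x hx hMx => ?_) hr
    · exact (Data.hasDerivAt_mass hD ((Set.mem_Ici.1 hs0).trans hx)).continuousAt.continuousWithinAt
    · have hx0 : D.r₀ ≤ x := (Set.mem_Ici.1 hs0).trans hx.le
      obtain ⟨M', h1, h2⟩ :=
        Data.mass_deriv_nonneg hD hx0 hN (hO x hx0) (hE x hx0) (hafter x hx) hMx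
      rwa [h1.deriv]
  have hlim2 : Tendsto D.mass atTop (𝓝 (2 * E)) := by
    simpa using (Data.tendsto_mass_sub_flux hA hD).add (hlim.const_mul 2)
  have h2E : D.mass s ≤ 2 * E :=
    ge_of_tendsto hlim2 ((eventually_ge_atTop s).mono hmono)
  have hbdd : BddBelow (D.area '' Set.Ici D.r₀) :=
    ⟨0, by rintro _ ⟨r, -, rfl⟩; exact Real.sqrt_nonneg _⟩
  have hinf : sInf (D.area '' Set.Ici D.r₀) ≤ D.area s := csInf_le hbdd ⟨s, hs0, rfl⟩
  have hnn : 0 ≤ sInf (D.area '' Set.Ici D.r₀) :=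
    Real.sInf_nonneg (by rintro _ ⟨r, -, rfl⟩; exact Real.sqrt_nonneg _)
  have := Real.rpow_le_rpow hnn hinf hc
  linarith

end Vale.Agent.P366.Cohom
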