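import Vale.Agent.P366.Cohom.Calc

/-!
Monotonicity of the quasi-local mass `ρ^{N-1} (1 - θ₊ θ₋ / (N tr h⁻¹))`.
-/

open Matrix Filter Topology

namespace Vale.Agent.P366.Cohom

variable {ι : Type} [Fintype ι] [DecidableEq ι]

/-- The curvature condition on an orbit metric. -/
def OrbitBound (h : Matrix ι ι ℝ) (R : ℝ) : Prop :=
  R * (h⁻¹).trace + Fintype.card ι * (h⁻¹ * h⁻¹).trace ≤ Fintype.card ι * (h⁻¹).trace ^ 2

/-- The pointwise inequality behind monotonicity. -/
theorem mono_pointwise {N H P T R s2 sk k2 sl l2 k kap mu J DH DP : ℝ} (hN : 2 ≤ N) (hT : 0 < T)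
    (hH : |P| < H) (hM : H ^ 2 - P ^ 2 ≤ N * T)
    (q1 : 0 ≤ k2 - 2 * (P / H) * sk + (P / H) ^ 2 * s2)
    (q2 : 0 ≤ s2 - 2 * (H / T) * sl + (H / T) ^ 2 * l2)
    (q3 : T ^ 2 ≤ N * l2)
    (hR : R * T + N * l2 ≤ N * T ^ 2) (hkap : 0 ≤ kap) (hJ : |J| ≤ mu)
    (hmu : 2 * mu = R - 2 * DH - H ^ 2 - s2 + (k + P) ^ 2 - (k ^ 2 + 2 * kap + k2))
    (hJeq : J = -DP + k * H - sk) :
    0 ≤ (N - 1) / N * H * (N * T - (H ^ 2 - P ^ 2)) - 2 * H * DH + 2 * P * DP +
      (H ^ 2 - P ^ 2) * (-2 * sl) / T := by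
  have hH0 : 0 < H := (abs_nonneg P).trans_lt hH
  set Z := H ^ 2 - P ^ 2 with hZ
  have hZ0 : 0 ≤ Z := by
    have := sq_le_sq' (abs_le.1 hH.le).1 (abs_le.1 hH.le).2
    simp only [hZ]; linarith
  have e : (N - 1) / N * H * (N * T - Z) - 2 * H * DH + 2 * P * DP + Z * (-2 * sl) / T =
      2 * (H * mu - P * J) + 2 * H * kap +
        H * (k2 - 2 * (P / H) * sk + (P / H) ^ 2 * s2) +
        Z / H * (s2 - 2 * (H / T) * sl + (H / T) ^ 2 * l2) +
        H * ((N - 1) * T - R + Z * (1 / N - l2 / T ^ 2)) := by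
    have hDH : DH = (R - H ^ 2 - s2 + (k + P) ^ 2 - (k ^ 2 + 2 * kap + k2) - 2 * mu) / 2 := by
      linarith
    have hDP : DP = k * H - sk - J := by linarith
    rw [hDH, hDP, hZ]
    field_simp
    ring
  rw [e]
  have hmu0 : 0 ≤ mu := (abs_nonneg J).trans hJ
  have a1 : 0 ≤ H * mu - P * J := by
    have : P * J ≤ |P| * |J| := by rw [← abs_mul]; exact le_abs_self _
    have h2 : |P| * |J| ≤ H * mu := mul_le_mul hH.le hJ (abs_nonneg _) hH0.le
    linarith
  have a2 : 0 ≤ (N - 1) * T - R + Z * (1 / N - l2 / T ^ 2) := by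
    have h1 : 1 / N - l2 / T ^ 2 ≤ 0 := by
      rw [sub_nonpos, div_le_div_iff₀ (by linarith) (by positivity)]
      linarith
    have h2 := mul_le_mul_of_nonpos_right hM h1
    have h3 : (N - 1) * T - R + N * T * (1 / N - l2 / T ^ 2) =
        (N * T ^ 2 - (R * T + N * l2)) / T := by
      field_simp
      ring
    have h4 : 0 ≤ (N * T ^ 2 - (R * T + N * l2)) / T := div_nonneg (by linarith) hT.le
    linarith
  have b1 : 0 ≤ H * (k2 - 2 * (P / H) * sk + (P / H) ^ 2 * s2) := mul_nonneg hH0.le q1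
  have b2 : 0 ≤ Z / H * (s2 - 2 * (H / T) * sl + (H / T) ^ 2 * l2) :=
    mul_nonneg (div_nonneg hZ0 hH0.le) q2
  have b3 := mul_nonneg hH0.le a2
  have b4 := mul_nonneg hH0.le hkap
  linarith

/-- A function nondecreasing while positive stays above a positive initial value. -/
theorem le_of_deriv_nonneg_of_pos {M M' : ℝ → ℝ} {a : ℝ} (hc : ContinuousOn M (Set.Ici a))
    (ha : 0 < M a) (hd : ∀ x, a < x → HasDerivAt M (M' x) x)
    (hp : ∀ x, a < x → 0 < M x → 0 ≤ M' x) {b : ℝ} (hb : a ≤ b) : M a ≤ M b := by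
  by_contra hlt
  rw [not_le] at hlt
  -- the last time before `b` at which the value is `M a`
  have hcb : ContinuousOn M (Set.Icc a b) := hc.mono Set.Icc_subset_Ici_self
  set S := Set.Icc a b ∩ M ⁻¹' {M a}
  have hS : IsClosed S := hcb.preimage_isClosed_of_isClosed isClosed_Icc isClosed_singleton
  have hne : S.Nonempty := ⟨a, ⟨le_rfl, hb⟩, rfl⟩
  have hbd : BddAbove S := ⟨b, fun x hx => hx.1.2⟩
  obtain ⟨⟨hca, hcb'⟩, hMc⟩ := hS.csSup_mem hne hbd
  set c := sSup S
  simp only [Set.mem_preimage, Set.mem_singleton_iff] at hMc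
  have hcb'' : c < b := lt_of_le_of_ne hcb' fun h => by rw [h] at hMc; linarith
  have hev : ∀ᶠ x in 𝓝[Set.Icc c b] c, 0 < M x :=
    (((hc c hca).mono fun x hx => hca.trans hx.1).tendsto).eventually_const_lt (hMc ▸ ha)
  rw [eventually_nhdsWithin_iff, Metric.eventually_nhds_iff] at hev
  obtain ⟨ε, hε, hev⟩ := hev
  set d := min b (c + ε / 2)
  have hd1 : c < d := lt_min hcb'' (by linarith)
  have hpos : ∀ x ∈ Set.Icc c d, 0 < M x := fun x hx => hev (by
    rw [Real.dist_eq, abs_of_nonneg (by linarith [hx.1])]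
    linarith [hx.2, min_le_right b (c + ε / 2)]) ⟨hx.1, hx.2.trans (min_le_left _ _)⟩
  have hmono : MonotoneOn M (Set.Icc c d) := by
    refine monotoneOn_of_hasDerivWithinAt_nonneg (f' := M') (convex_Icc c d)
      (hc.mono fun x hx => hca.trans hx.1) ?_ ?_ <;> intro x hx <;> rw [interior_Icc] at hx
    · exact (hd x (hca.trans_lt hx.1)).hasDerivWithinAt
    · exact hp x (hca.trans_lt hx.1) (hpos x ⟨hx.1.le, hx.2.le⟩)
  have h1 := hmono ⟨le_rfl, hd1.le⟩ ⟨hd1.le, le_rfl⟩ hd1.le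
  rw [hMc] at h1
  rcases h1.lt_or_eq with h2 | h2
  · have hdb : d ≤ b := min_le_left _ _
    obtain ⟨y, hy, hy'⟩ := intermediate_value_Icc' hdb (hc.mono fun x hx =>
      (hca.trans hd1.le).trans hx.1) ⟨hlt.le, h2.le⟩
    exact (hd1.trans_le hy.1).not_ge (le_csSup hbd ⟨⟨hca.trans (hd1.le.trans hy.1), hy.2⟩, hy'⟩)
  · exact hd1.not_ge (le_csSup hbd ⟨⟨hca.trans hd1.le, min_le_left _ _⟩, h2.symm⟩)

namespace Data

variable (D : Data ι)

/-- The trace of the inverse orbit metric. -/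
noncomputable def T (r : ℝ) : ℝ := ((D.h r)⁻¹).trace

/-- The quasi-local mass, times two. -/
noncomputable def mass (r : ℝ) : ℝ :=
  (D.h r).det ^ (((Fintype.card ι : ℝ) - 1) / Fintype.card ι / 2) *
    (1 - (D.H r ^ 2 - D.P r ^ 2) / (Fintype.card ι * D.T r))

variable {D} (hD : D.Regular) {r : ℝ} (hr : D.r₀ ≤ r)
include hD

theorem md_h (r : ℝ) : MD D.h (D.dh r) r := fun i j =>
  ((hD.smooth_h i j).differentiable (by norm_num) r).hasDerivAt

theorem differentiable_dh (i j : ι) : Differentiable ℝ fun s => D.dh s i j := by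
  have h : ContDiff ℝ (1 + 1) fun s => D.h s i j := by simpa [one_add_one_eq_two] using hD.smooth_h i j
  exact ((contDiff_succ_iff_deriv.1 h).2.2.differentiable (by norm_num))

include hr

theorem det_pos : 0 < (D.h r).det := (hD.h_pos r hr).det_pos

theorem md_inv : MD (fun s => (D.h s)⁻¹) (-((D.h r)⁻¹ * D.dh r * (D.h r)⁻¹)) r :=
  (md_h hD r).inv (det_pos hD hr).ne'

theorem differentiableAt_H : DifferentiableAt ℝ D.H r := by
  unfold Data.H Data.shape
  simp only [Matrix.trace, Matrix.diag, Matrix.smul_apply, Matrix.mul_apply, smul_eq_mul]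
  refine DifferentiableAt.fun_sum fun i _ => DifferentiableAt.mul ?_
    (DifferentiableAt.fun_sum fun j _ => DifferentiableAt.mul ?_ ?_)
  · exact (((hD.smooth_f.differentiable (by norm_num)) r).const_mul 2).inv
      (mul_ne_zero two_ne_zero (hD.f_pos r hr).ne')
  · exact (md_inv hD hr i j).differentiableAt
  · exact (differentiable_dh hD j i) r

theorem differentiableAt_P : DifferentiableAt ℝ D.P r := by
  unfold Data.P Data.kop
  simp only [Matrix.trace, Matrix.diag, Matrix.mul_apply]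
  exact DifferentiableAt.fun_sum fun i _ => DifferentiableAt.fun_sum fun j _ =>
    (md_inv hD hr i j).differentiableAt.mul ((hD.smooth_Kt j i).differentiable (by norm_num) r)

theorem T_pos [Nonempty ι] : 0 < D.T r := (hD.h_pos r hr).inv.trace_pos

theorem hasDerivAt_T :
    HasDerivAt D.T (-2 * D.f r * (D.shape r * (D.h r)⁻¹).trace) r := by
  refine (md_inv hD hr).trace.congr_deriv ?_
  have := (hD.f_pos r hr).ne'
  simp only [Data.shape, Matrix.smul_mul, trace_smul, trace_neg, smul_eq_mul]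
  field_simp

theorem hasDerivAt_mass [Nonempty ι] :
    HasDerivAt D.mass
      (D.f r * ((D.h r).det ^ (((Fintype.card ι : ℝ) - 1) / Fintype.card ι / 2)) /
        (Fintype.card ι * D.T r) *
        (((Fintype.card ι : ℝ) - 1) / Fintype.card ι * D.H r *
          (Fintype.card ι * D.T r - (D.H r ^ 2 - D.P r ^ 2)) -
          2 * D.H r * (deriv D.H r / D.f r) + 2 * D.P r * (deriv D.P r / D.f r) +
          (D.H r ^ 2 - D.P r ^ 2) * (-2 * (D.shape r * (D.h r)⁻¹).trace) / D.T r)) r := by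
  have hT := (T_pos hD hr).ne'
  have hf := (hD.f_pos r hr).ne'
  have hN : (Fintype.card ι : ℝ) ≠ 0 := by positivity
  have h1 := ((md_h hD r).det_of_ne (det_pos hD hr).ne').rpow_const
    (p := ((Fintype.card ι : ℝ) - 1) / Fintype.card ι / 2) (Or.inl (det_pos hD hr).ne')
  have h2 := ((((differentiableAt_H hD hr).hasDerivAt).fun_pow 2).fun_sub
    (((differentiableAt_P hD hr).hasDerivAt).fun_pow 2)).fun_div
    ((hasDerivAt_T hD hr).const_mul (Fintype.card ι : ℝ)) (mul_ne_zero hN hT)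
  have h3 := h1.fun_mul (h2.const_sub 1)
  have htr : ((D.h r)⁻¹ * D.dh r).trace = 2 * D.f r * D.H r := by
    simp only [Data.H, Data.shape, trace_smul, smul_eq_mul]
    field_simp
  refine h3.congr_deriv ?_
  rw [htr, Real.rpow_sub_one (det_pos hD hr).ne']
  have hdet := (det_pos hD hr).ne'
  field_simp
  ring

theorem mass_deriv_nonneg [Nonempty ι] (hN : 2 ≤ Fintype.card ι) (hO : OrbitBound (D.h r) (D.R r))
    (hE : |D.Jnu r| ≤ D.mu r) (hH : |D.P r| < D.H r) (hM : 0 < D.mass r) :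
    ∃ M', HasDerivAt D.mass M' r ∧ 0 ≤ M' := by
  refine ⟨_, hasDerivAt_mass hD hr, mul_nonneg ?_ ?_⟩
  · have := T_pos hD hr
    have := hD.f_pos r hr
    have := det_pos hD hr
    positivity
  set L := (D.h r)⁻¹
  have hN0 : (0 : ℝ) < Fintype.card ι := by positivity
  have hT : 0 < D.T r := T_pos hD hr
  have hL : L.PosSemidef := (hD.h_pos r hr).inv.posSemidef
  have hdh : (D.dh r).IsHermitian := by
    ext i j
    simp only [conjTranspose_apply, star_trivial, Data.dh, Matrix.of_apply]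
    rcases hr.eq_or_lt with rfl | hlt
    · exact ((uniqueDiffWithinAt_Ici D.r₀).eq_deriv _
        ((md_h hD D.r₀ j i).hasDerivWithinAt)
        ((md_h hD D.r₀ i j).hasDerivWithinAt.congr
          (fun s hs => by simpa using (hD.h_pos s hs).isHermitian.apply i j)
          (by simpa using (hD.h_pos D.r₀ le_rfl).isHermitian.apply i j)))
    · refine Filter.EventuallyEq.deriv_eq ?_
      filter_upwards [eventually_gt_nhds hlt] with s hs
      simpa using (hD.h_pos s hs.le).isHermitian.apply i j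
  have hS : ∀ A : Matrix ι ι ℝ, A.IsHermitian → 0 ≤ (L * A * (L * A)).trace :=
    fun A hA => trace_sq_nonneg hL hA
  have hSh : D.shape r = L * ((2 * D.f r)⁻¹ • D.dh r) := by simp [Data.shape, L]
  have hherm : ∀ (c : ℝ) (A : Matrix ι ι ℝ), A.IsHermitian → (c • A).IsHermitian :=
    fun c A hA => hA.smul (IsSelfAdjoint.all c)
  refine mono_pointwise (N := (Fintype.card ι : ℝ)) (s2 := (D.shape r * D.shape r).trace)
    (sk := (D.shape r * D.kop r).trace) (k2 := (D.kop r * D.kop r).trace)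
    (l2 := (L * L).trace) (k := D.k r) (kap := D.kmix r ⬝ᵥ (L *ᵥ D.kmix r)) (R := D.R r)
    (mu := D.mu r) (J := D.Jnu r)
    (by exact_mod_cast hN) hT hH ?_ ?_ ?_ ?_ hO ?_ hE ?_ rfl
  · by_contra hc
    rw [not_le] at hc
    have : 1 - (D.H r ^ 2 - D.P r ^ 2) / (Fintype.card ι * D.T r) ≤ 0 := by
      rw [sub_nonpos, le_div_iff₀ (by positivity)]; linarith
    exact hM.not_ge (mul_nonpos_of_nonneg_of_nonpos (Real.rpow_nonneg (det_pos hD hr).le _) this)
  · have h := hS (D.Kt r - (D.P r / D.H r) • ((2 * D.f r)⁻¹ • D.dh r))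
      ((hD.Kt_symm r hr).sub (hherm _ _ (hherm _ _ hdh)))
    rw [Matrix.mul_sub, Matrix.mul_smul, ← hSh] at h
    simp only [Matrix.sub_mul, Matrix.mul_sub, Matrix.smul_mul, Matrix.mul_smul, trace_sub,
      trace_smul, smul_eq_mul, trace_mul_comm (L * D.Kt r) (D.shape r)] at h
    simp only [Data.kop]
    linarith
  · have h := hS ((2 * D.f r)⁻¹ • D.dh r - (D.H r / D.T r) • (1 : Matrix ι ι ℝ))
      ((hherm _ _ hdh).sub (hherm _ _ Matrix.isHermitian_one))
    rw [Matrix.mul_sub, ← hSh, Matrix.mul_smul, Matrix.mul_one] at h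
    simp only [Matrix.sub_mul, Matrix.mul_sub, Matrix.smul_mul, Matrix.mul_smul, trace_sub,
      trace_smul, smul_eq_mul, trace_mul_comm L (D.shape r)] at h
    linarith
  · have h := hS ((1 : Matrix ι ι ℝ) - (D.T r / Fintype.card ι) • D.h r)
      (Matrix.isHermitian_one.sub (hherm _ _ (hD.h_pos r hr).isHermitian))
    rw [Matrix.mul_sub, Matrix.mul_smul, Matrix.mul_one,
      Matrix.nonsing_inv_mul _ (isUnit_iff_ne_zero.2 (det_pos hD hr).ne')] at h
    simp only [Matrix.sub_mul, Matrix.mul_sub, Matrix.smul_mul, Matrix.mul_smul, Matrix.mul_one,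
      Matrix.one_mul, trace_sub, trace_smul, smul_eq_mul, trace_one] at h
    rw [show L.trace = D.T r from rfl] at h
    field_simp at h
    nlinarith
  · simpa using hL.dotProduct_mulVec_nonneg (D.kmix r)
  · simp only [Data.mu, Data.scal, Data.normK2]
    ring

end Data

end Vale.Agent.P366.Cohom
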